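import Vale.Agent.P284.H691.D.Basic2
import Vale.Agent.P284.H661.D.Spec
import Vale.Agent.P284.H988.D.E5

/-!
# P284 (helper691), project D, module E7: the pull-back identity and the pointwise bounds
-/

open scoped Manifold ContDiff Topology ComplexOrder ComplexConjugate Matrix
open Filter Set MeasureTheory

noncomputable section

namespace Vale.Agent.P284.H691.D

open Vale.Agent.P272.K Vale.Agent.P284.H248 Vale.Agent.P284.H206.K Vale.Agent.P284.H224.D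
  Vale.Agent.P284.H661.D

/-- the ratios `σ_b / σ_{a₀}` -/
def rat {n R : ℕ} (σ : Cm n → Cm (R + 1)) (a₀ : Fin (R + 1)) (p : Cm n) : Cm R :=
  fun b => σ p (a₀.succAbove b) / σ p a₀

/-- the statement LEAF (helper451) -/
def LeafStmt : Prop :=
  ∀ (n R k : ℕ), 1 ≤ R → R ≤ n → 1 ≤ k → ∀ (r M Cs : ℝ), 0 < r → 0 < M → 0 < Cs →
    ∃ c : ℝ, 0 < c ∧ ∀ (σ : Cm n → Cm (R + 1)) (a₀ : Fin (R + 1)) (hf : Cm n → ℂ) (x' : Cm n),
      (∀ p ∈ Metric.closedBall x' r, AnalyticAt ℂ σ p) →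
      (∀ p ∈ Metric.closedBall x' r, ∀ a, ‖σ p a‖ ≤ Cs) →
      σ x' a₀ ≠ 0 →
      (∀ p ∈ Metric.closedBall x' r, σ p a₀ ≠ 0 → rat σ a₀ p = rat σ a₀ x' →
        Function.Surjective (fderiv ℂ (rat σ a₀) p)) →
      (∀ p ∈ Metric.closedBall x' r, σ p a₀ ≠ 0 → Function.Surjective (fderiv ℂ (rat σ a₀) p) →
        AnalyticAt ℂ hf p ∧
        (∀ ξ, fderiv ℂ (rat σ a₀) p ξ = 0 → fderiv ℂ (fun q => σ q a₀ * hf q ^ k) p ξ = 0) ∧
        ‖hf p‖ ^ 2 * (H66.S7.JF (rat σ a₀) p * (H66.S7.JF (rat σ a₀) p)ᴴ).det.re ≤ M) →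
      ∃ δ : ℝ, 0 < δ ∧ ∀ᶠ ε in 𝓝[>] (0 : ℝ), ∀ g : Cm n → ℝ,
        IntegrableOn g (Metric.closedBall x' r) → (∀ p ∈ Metric.closedBall x' r, 0 ≤ g p) →
        (∀ p ∈ Metric.closedBall x' r, δ ≤ ‖σ p a₀‖ → ‖rat σ a₀ p - rat σ a₀ x'‖ ≤ ε →
          ε⁻¹ ^ (2 * R) * (H66.S7.JF (rat σ a₀) p *
            (H66.S7.JF (rat σ a₀) p)ᴴ).det.re ^ (((R : ℝ) - 1) / R) ≤ g p) →
        c * ‖σ x' a₀ * hf x' ^ k‖ ^ (2 / ((k : ℝ) * R)) ≤ ∫ p in Metric.closedBall x' r, g p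

section pull
variable {n R : ℕ} {X : Type} [TopologicalSpace X] [ChartedSpace (Cm n) X]
  {L : LineBundle n X} {k : ℕ} [IsManifold 𝓘(ℂ, Cm n) ω X] {s : Fin (R + 1) → Sec L k}
  {φ : Mor L R} {a₀ : Fin (R + 1)} {i : L.ι} {e : Chart n X} {f : Cm R → X}
  {F : Cm R → Cm (R + 1)} {z : Cm R}

omit [IsManifold 𝓘(ℂ, Cm n) ω X] in
/-- the ratios of the sections at `f z` are the ratios of `F` -/
theorem ratio_eq (hsu : SetUp φ s f F) (he : At e (f z)) (hi : f z ∈ L.U i) (hF0 : F z a₀ ≠ 0)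
    (b : Fin R) : (s (a₀.succAbove b)).f i (f z) / (s a₀).f i (f z) =
      F z (a₀.succAbove b) / F z a₀ := by
  have h1 := hsu.pull z i e he hi a₀
  have h2 := hsu.pull z i e he hi (a₀.succAbove b)
  have h3 : (φ.form i e (e (f z)) fun j => fderiv ℂ (fun z' => e (f z')) z
      (Pi.single j 1)) ^ k ≠ 0 := by
    intro h
    rw [h1, h, mul_zero] at hF0
    exact hF0 rfl
  rw [h1, h2, mul_div_mul_right _ _ h3]

omit [IsManifold 𝓘(ℂ, Cm n) ω X] in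
theorem sec_ne (hsu : SetUp φ s f F) (he : At e (f z)) (hi : f z ∈ L.U i) (hF0 : F z a₀ ≠ 0) :
    (s a₀).f i (f z) ≠ 0 := by
  intro h
  rw [hsu.pull z i e he hi a₀, h, zero_mul] at hF0
  exact hF0 rfl

variable [T2Space X] [CompactSpace X] {w : Chart n X → Cm n → Matrix (Fin n) (Fin n) ℂ}

/-- **(F5)** `F_{a₀}(z) = R₀(f z) det (D (F_b / F_{a₀}))^k` -/
theorem F_eq (hsu : SetUp φ s f F) (hw : IsKahler w) (hR : 1 ≤ R) (hk : k ≠ 0)
    (he : At e (f z)) (hi : f z ∈ L.U i) (hF0 : F z a₀ ≠ 0)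
    (hs : Function.Surjective (fderiv ℂ (yq s a₀ i e) (e (f z)))) :
    F z a₀ = R0 s φ a₀ i e (e (f z)) * (Matrix.of fun b j => fderiv ℂ
      (fun z' => F z' (a₀.succAbove b) / F z' a₀) z (Pi.single j 1) :
        Matrix (Fin R) (Fin R) ℂ).det ^ k := by
  have h0 := sec_ne hsu he hi hF0
  have h1 := hsu.pull z i e he hi a₀
  rw [form_hF (φ := φ) hw hR hk he hi h0 hs] at h1
  have hfd : DifferentiableAt ℂ (fun z' => e (f z')) z :=
    (Vale.Agent.P284.H221.chart_comp_analytic hsu.hf he).differentiableAt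
  have hya := yq_an (s := s) he hi h0
  have h2 : HasFDerivAt (fun z' => yq s a₀ i e (e (f z')))
      ((fderiv ℂ (yq s a₀ i e) (e (f z))).comp (fderiv ℂ (fun z' => e (f z')) z)) z :=
    HasFDerivAt.comp (f := fun z' => e (f z')) (g := yq s a₀ i e) z
      hya.differentiableAt.hasFDerivAt hfd.hasFDerivAt
  have hev : ∀ᶠ z' in 𝓝 z, At e (f z') ∧ f z' ∈ L.U i ∧ F z' a₀ ≠ 0 := by
    have c1 := hsu.hf.continuous.continuousAt.eventually (e.open_source.mem_nhds he.2)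
    have c2 := hsu.hf.continuous.continuousAt.eventually ((L.isOpen i).mem_nhds hi)
    have c3 : ContinuousAt (fun z' => F z' a₀) z :=
      (analyticAt_pi_iff.1 (hsu.hF z) a₀).continuousAt
    filter_upwards [c1, c2, c3.eventually_ne hF0] with z' d1 d2 d3
    exact ⟨⟨he.1, d1⟩, d2, d3⟩
  have h3 : ∀ b : Fin R, (fun z' => F z' (a₀.succAbove b) / F z' a₀) =ᶠ[𝓝 z]
      fun z' => yq s a₀ i e (e (f z')) b := by
    intro b
    filter_upwards [hev] with z' hz'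
    rw [← ratio_eq hsu hz'.1 hz'.2.1 hz'.2.2 b]
    show _ = (s (a₀.succAbove b)).f i (e.symm (e (f z'))) / (s a₀).f i (e.symm (e (f z')))
    rw [hz'.1.left_inv]
  have h4 : ∀ b j, fderiv ℂ (fun z' => F z' (a₀.succAbove b) / F z' a₀) z (Pi.single j 1) =
      fderiv ℂ (yq s a₀ i e) (e (f z)) (fderiv ℂ (fun z' => e (f z')) z (Pi.single j 1)) b := by
    intro b j
    have h5 : HasFDerivAt (fun z' => yq s a₀ i e (e (f z')) b)
        ((ContinuousLinearMap.proj (R := ℂ) (φ := fun _ : Fin R => ℂ) b).comp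
          ((fderiv ℂ (yq s a₀ i e) (e (f z))).comp (fderiv ℂ (fun z' => e (f z')) z))) z :=
      (ContinuousLinearMap.proj (R := ℂ) (φ := fun _ : Fin R => ℂ) b).hasFDerivAt.comp z h2
    rw [(h3 b).fderiv_eq, h5.fderiv]
    rfl
  have h6 : (Matrix.of fun b j => fderiv ℂ
      (fun z' => F z' (a₀.succAbove b) / F z' a₀) z (Pi.single j 1) :
        Matrix (Fin R) (Fin R) ℂ) = Matrix.of fun b l => fderiv ℂ (yq s a₀ i e) (e (f z))
        (fderiv ℂ (fun z' => e (f z')) z (Pi.single l 1)) b := by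
    ext b j
    rw [Matrix.of_apply, Matrix.of_apply, h4]
  rw [h6, h1, R0, he.left_inv, mul_pow]
  ring

end pull

/-! ### the quotient `Q` -/

section quot
variable {R : ℕ}

/-- the size of `|σ ∧ v|² + ε |σ|² |v|²` near the line of `v` -/
theorem Q_le {σ v : Cm (R + 1)} {a₀ : Fin (R + 1)} (hσ : σ a₀ ≠ 0) (hv : v a₀ ≠ 0)
    (hmax : ∀ a, ‖v a‖ ≤ ‖v a₀‖) {ε δ : ℝ} (hδ0 : 0 ≤ δ) (hδ1 : δ ≤ 1) (hε : ε = δ ^ 2)
    (hd : ∀ b : Fin R, ‖σ (a₀.succAbove b) / σ a₀ - v (a₀.succAbove b) / v a₀‖ ≤ δ) :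
    ((1 / 2) * ∑ a, ∑ b, ‖σ a * v b - σ b * v a‖ ^ 2 + ε * (∑ a, ‖σ a‖ ^ 2) * ∑ a, ‖v a‖ ^ 2) /
      (‖σ a₀‖ ^ 2 * ‖v a₀‖ ^ 2) ≤ 6 * ((R : ℝ) + 1) ^ 2 * ε := by
  have hσp : 0 < ‖σ a₀‖ := norm_pos_iff.2 hσ
  have hvp : 0 < ‖v a₀‖ := norm_pos_iff.2 hv
  set y : Cm (R + 1) := fun a => σ a / σ a₀ with hy
  set Y : Cm (R + 1) := fun a => v a / v a₀ with hY
  have hσy : ∀ a, σ a = σ a₀ * y a := fun a => by rw [hy]; field_simp
  have hvY : ∀ a, v a = v a₀ * Y a := fun a => by rw [hY]; field_simp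
  have hdist : ∀ a, ‖y a - Y a‖ ≤ δ := by
    intro a
    rcases Fin.eq_self_or_eq_succAbove a₀ a with h | ⟨b, h⟩
    · rw [h, hy, hY]
      simp only
      rw [div_self hσ, div_self hv, sub_self, norm_zero]
      exact hδ0
    · rw [h]; exact hd b
  have hY1 : ∀ a, ‖Y a‖ ≤ 1 := by
    intro a
    rw [hY]
    simp only
    rw [norm_div, div_le_one hvp]
    exact hmax a
  have hy2 : ∀ a, ‖y a‖ ≤ 2 := by
    intro a
    have : y a = (y a - Y a) + Y a := by ring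
    rw [this]
    exact (norm_add_le _ _).trans (by linarith [hdist a, hY1 a])
  have hw : ∀ a b, ‖σ a * v b - σ b * v a‖ ^ 2 ≤ (‖σ a₀‖ ^ 2 * ‖v a₀‖ ^ 2) * (4 * ε) := by
    intro a b
    have e1 : σ a * v b - σ b * v a = (σ a₀ * v a₀) * ((y a - Y a) * Y b - (y b - Y b) * Y a) := by
      rw [hσy a, hσy b, hvY a, hvY b]; ring
    have e2 : ‖(y a - Y a) * Y b - (y b - Y b) * Y a‖ ≤ 2 * δ := by
      refine (norm_sub_le _ _).trans ?_
      rw [norm_mul, norm_mul]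
      have h1 := mul_le_mul (hdist a) (hY1 b) (norm_nonneg _) hδ0
      have h2 := mul_le_mul (hdist b) (hY1 a) (norm_nonneg _) hδ0
      linarith
    have e3 : ‖(y a - Y a) * Y b - (y b - Y b) * Y a‖ ^ 2 ≤ (2 * δ) ^ 2 :=
      pow_le_pow_left₀ (norm_nonneg _) e2 2
    rw [e1, norm_mul, norm_mul, mul_pow, mul_pow, hε]
    have : (2 * δ) ^ 2 = 4 * δ ^ 2 := by ring
    rw [this] at e3
    exact mul_le_mul_of_nonneg_left e3 (by positivity)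
  have hs1 : ∑ a, ‖σ a‖ ^ 2 ≤ ‖σ a₀‖ ^ 2 * (4 * ((R : ℝ) + 1)) := by
    have h1 : ∀ a, ‖σ a‖ ^ 2 ≤ ‖σ a₀‖ ^ 2 * 4 := by
      intro a
      rw [hσy a, norm_mul, mul_pow]
      have := pow_le_pow_left₀ (norm_nonneg _) (hy2 a) 2
      exact mul_le_mul_of_nonneg_left (this.trans (by norm_num)) (by positivity)
    calc _ ≤ ∑ _a : Fin (R + 1), ‖σ a₀‖ ^ 2 * 4 := Finset.sum_le_sum fun a _ => h1 a
      _ = _ := by rw [Finset.sum_const, Finset.card_univ, Fintype.card_fin, nsmul_eq_mul]; push_cast; ring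
  have hv1 : ∑ a, ‖v a‖ ^ 2 ≤ ‖v a₀‖ ^ 2 * ((R : ℝ) + 1) := by
    calc _ ≤ ∑ _a : Fin (R + 1), ‖v a₀‖ ^ 2 :=
          Finset.sum_le_sum fun a _ => pow_le_pow_left₀ (norm_nonneg _) (hmax a) 2
      _ = _ := by rw [Finset.sum_const, Finset.card_univ, Fintype.card_fin, nsmul_eq_mul]; push_cast; ring
  have hsum : ∑ a, ∑ b, ‖σ a * v b - σ b * v a‖ ^ 2 ≤
      ((R : ℝ) + 1) ^ 2 * ((‖σ a₀‖ ^ 2 * ‖v a₀‖ ^ 2) * (4 * ε)) := by
    calc _ ≤ ∑ _a : Fin (R + 1), ∑ _b : Fin (R + 1), (‖σ a₀‖ ^ 2 * ‖v a₀‖ ^ 2) * (4 * ε) :=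
          Finset.sum_le_sum fun a _ => Finset.sum_le_sum fun b _ => hw a b
      _ = _ := by
        simp only [Finset.sum_const, Finset.card_univ, Fintype.card_fin, nsmul_eq_mul]
        push_cast; ring
  have hε0 : 0 ≤ ε := by rw [hε]; positivity
  rw [div_le_iff₀ (by positivity)]
  have h1 : ε * (∑ a, ‖σ a‖ ^ 2) * ∑ a, ‖v a‖ ^ 2 ≤
      ε * (‖σ a₀‖ ^ 2 * (4 * ((R : ℝ) + 1))) * (‖v a₀‖ ^ 2 * ((R : ℝ) + 1)) := by
    refine mul_le_mul (mul_le_mul_of_nonneg_left hs1 hε0) hv1 (by positivity) (by positivity)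
  nlinarith [h1, hsum]

end quot

end Vale.Agent.P284.H691.D
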