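import Vale.Agent.P284.H691.D.E7b
import Vale.Agent.P284.H619.D.Ball
import Vale.Agent.P284.H608.D.Dens
import Vale.Agent.P284.H837.D.Gram

/-!
# P284 (helper691), project D, module E7: the lower bound of `H(z)` for almost every `z`
-/

open scoped Manifold ContDiff Topology ComplexOrder ComplexConjugate Matrix
open Filter Set MeasureTheory

noncomputable section

namespace Vale.Agent.P284.H691.D

open Vale.Agent.P272.K Vale.Agent.P284.H248 Vale.Agent.P284.H206.K Vale.Agent.P284.H224.D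
  Vale.Agent.P284.H661.D

theorem sqrt_tendsto : Tendsto Real.sqrt (𝓝[>] (0 : ℝ)) (𝓝[>] (0 : ℝ)) := by
  refine tendsto_nhdsWithin_iff.2 ⟨?_, ?_⟩
  · have := (Real.continuous_sqrt.tendsto 0).mono_left (nhdsWithin_le_nhds (s := Ioi (0 : ℝ)))
    rwa [Real.sqrt_zero] at this
  · filter_upwards [self_mem_nhdsWithin] with ε hε
    exact Real.sqrt_pos.2 hε

theorem hatM_psd {n : ℕ} {A : Matrix (Fin n) (Fin n) ℂ} (hA : A.PosSemidef) :
    (hatM A).PosSemidef := H988.D.hatM_psd hA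

theorem e7_of (hG : GramStmt) (h1 : E1Stmt) (h1b : E1bStmt) (hL : LeafStmt) : E7Stmt := by
  intro n R k hR hRn hk X _ _ _ _ _ _ W hW L P φ s
  obtain ⟨C₁, hC₁, g1⟩ := h1 n R k X W hW L P s
  obtain ⟨C₂, hC₂, g2⟩ := h1b n R k X W hW L P s
  refine ⟨max C₁ C₂, lt_max_of_lt_left hC₁, fun C hC f F hsu => ?_⟩
  have hc1 : C₁ ≤ C := (le_max_left _ _).trans hC
  have hc2 : C₂ ≤ C := (le_max_right _ _).trans hC
  have hk0 : k ≠ 0 := by omega
  have hkR : (0 : ℝ) < k := by exact_mod_cast hk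
  have hR0 : (0 : ℝ) < R := by exact_mod_cast hR
  obtain ⟨A⟩ := H837.D.exists_atl L hW.toIsHermitian
  obtain ⟨Ms, hMs, hsb⟩ := A.sec_bd s
  obtain ⟨Mφ, hMφ, hφb⟩ := A.form_bd φ
  obtain ⟨MH, hMH, hHb⟩ := A.bd (g := fun j y => HH P (A.i j) ((A.e j).symm y)) (fun j y hy => by
    have h1 := (HH_smooth P (A.at' hy) (A.frame j y hy)).continuousAt
    rwa [A.inv hy] at h1)
  set M : ℝ := (∑ _J : Fin R → Fin n, Mφ ^ 2) + 1 with hM
  have hM0 : 0 < M := by
    have : (0 : ℝ) ≤ ∑ _J : Fin R → Fin n, Mφ ^ 2 := Finset.sum_nonneg fun _ _ => by positivity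
    linarith
  obtain ⟨cL, hcL, leaf⟩ := hL n R k hR hRn hk A.r M Ms A.hr hM0 hMs
  have hkap := kap_pos (n := n) hR A.hc A.hC
  set α : ℝ := 1 / ((k : ℝ) * R) with hα
  have hα0 : 0 < α := by rw [hα]; positivity
  refine ⟨kap n R A.c A.C * cL * (((R : ℝ) + 1)⁻¹) ^ α, by positivity, ?_⟩
  -- almost every `z`
  set U : Fin A.N → Set (Cm n) := fun j => (A.e j).target ∩ (A.e j).symm ⁻¹' (L.U (A.i j)) with hU
  have hUo : ∀ j, IsOpen (U j) := fun j =>
    (A.e j).isOpen_inter_preimage_symm (L.isOpen (A.i j))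
  have hUat : ∀ j, ∀ y ∈ U j, At (A.e j) ((A.e j).symm y) ∧ (A.e j) ((A.e j).symm y) = y :=
    fun j y hy => ⟨⟨A.mem j, (A.e j).map_target hy.1⟩, (A.e j).right_inv hy.1⟩
  have hbU : ∀ j, Metric.closedBall (A.p j) (A.ρ j) ⊆ U j := fun j y hy =>
    ⟨A.sub j hy, A.frame j y hy⟩
  set sg : Fin A.N → Cm n → Cm (R + 1) := fun j y a => (s a).f (A.i j) ((A.e j).symm y) with hsg
  have hsga : ∀ j, ∀ y ∈ U j, AnalyticAt ℂ (sg j) y := by
    intro j y hy
    rw [analyticAt_pi_iff]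
    intro a
    have h2 := ((s a).holo (A.i j) (A.e j) _ (hUat j y hy).1 hy.2).analyticAt
    rwa [(hUat j y hy).2] at h2
  have hae := H451.D.cone_crit_ae hsu.hF ⟨0, hsu.surj⟩ hUo hsga
  filter_upwards [hae] with z hz
  have hHz0 : ∀ ε : ℝ, 0 < ε → ε ≤ 1 → ∀ (j : Fin R) (e : Chart n X) (x : X), At e x →
      0 ≤ cfd (n - R + 1) (KJ C W (lamE ε P s F) e (e x) z j) (hatM (W e (e x))) := by
    intro ε hε hε1 j e x hx
    rw [H988.D.cfd_eq]
    exact H988.D.coD_nonneg_re _ ((g1 C hc1 F hsu.hF ε hε hε1).2.2.1 e x hx z j)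
      (hatM_psd (hW.posDef e x hx).posSemidef)
  have hdens : ∀ ε : ℝ, 0 < ε → ε ≤ 1 → ∀ j : Fin R, INT.IsDensity (fun (e : Chart n X) y =>
      cfd (n - R + 1) (KJ C W (lamE ε P s F) e y z j) (hatM (W e y))) := by
    intro ε hε hε1 j
    exact H608.D.isDensity_cfdK hW.toIsHermitian C (g1 C hc1 F hsu.hF ε hε hε1).1 _ z j
  have hev1 : ∀ᶠ ε in 𝓝[>] (0 : ℝ), 0 < ε ∧ ε ≤ 1 := by
    filter_upwards [self_mem_nhdsWithin, mem_nhdsWithin_of_mem_nhds (Iic_mem_nhds
      (show (0 : ℝ) < 1 by norm_num))] with ε h2 h3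
    exact ⟨h2, h3⟩
  by_cases hFz : F z = 0
  · -- trivial case
    filter_upwards [hev1] with ε hε
    have h2 : nF (F z) = 0 := by rw [hFz, nF]; simp
    rw [h2, Real.zero_rpow hα0.ne', mul_zero]
    unfold Hz
    refine Finset.sum_nonneg fun j _ => ?_
    exact INT.intX_nonneg (hHz0 ε hε.1 hε.2 j)
  -- the index of the largest component
  obtain ⟨a₀, -, hmax⟩ := Finset.exists_max_image Finset.univ (fun a => ‖F z a‖)
    ⟨0, Finset.mem_univ _⟩
  have hmax' : ∀ a, ‖F z a‖ ≤ ‖F z a₀‖ := fun a => hmax a (Finset.mem_univ a)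
  have hF0 : F z a₀ ≠ 0 := by
    intro h
    apply hFz
    funext a
    have := hmax' a
    rw [h, norm_zero] at this
    exact norm_le_zero_iff.1 this
  obtain ⟨j₀, hx, hball⟩ := A.cover (f z)
  set e := A.e j₀ with he
  set i := A.i j₀ with hi'
  set x' : Cm n := e (f z) with hx'
  have hx'b : x' ∈ Metric.closedBall x' A.r := Metric.mem_closedBall_self A.hr.le
  have hx'U : x' ∈ U j₀ := hbU j₀ (hball hx'b)
  have hfi : f z ∈ L.U i := by
    have := hx'U.2
    show f z ∈ L.U (A.i j₀)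
    have h2 : (A.e j₀).symm x' = f z := hx.left_inv
    rw [← h2]; exact this
  have hs0 := sec_ne hsu hx hfi hF0
  set σ := sg j₀ with hσ
  have hσe : ∀ a, σ x' a = (s a).f i (f z) := by
    intro a
    show (s a).f i (e.symm (e (f z))) = _
    rw [hx.left_inv]
  have hrat : ∀ p, rat σ a₀ p = yq s a₀ i e p := fun p => rfl
  have hratf : rat σ a₀ = yq s a₀ i e := rfl
  have hratx : rat σ a₀ x' = rat F a₀ z := by
    funext b
    show σ x' (a₀.succAbove b) / σ x' a₀ = F z (a₀.succAbove b) / F z a₀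
    rw [hσe, hσe, ratio_eq hsu hx hfi hF0]
  have hon : ∀ p ∈ Metric.closedBall x' A.r, σ p a₀ ≠ 0 → rat σ a₀ p = rat σ a₀ x' →
      Function.Surjective (fderiv ℂ (rat σ a₀) p) := by
    intro p hp hp0 hpr
    have hpU := hbU j₀ (hball hp)
    have h2 : (F z a₀ / σ p a₀) • σ p = F z := by
      funext a
      rw [Pi.smul_apply, smul_eq_mul]
      rcases Fin.eq_self_or_eq_succAbove a₀ a with h | ⟨b, h⟩
      · rw [h]; exact div_mul_cancel₀ _ hp0
      · rw [h]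
        have h3 := congrFun (hpr.trans hratx) b
        have h4 : σ p (a₀.succAbove b) / σ p a₀ = F z (a₀.succAbove b) / F z a₀ := h3
        rw [div_eq_div_iff hp0 hF0] at h4
        rw [div_mul_eq_mul_div, div_eq_iff hp0]
        linear_combination h4
    have h5 := hz j₀ p hpU _ h2 hFz
    exact surj_ratio (hsga j₀ p hpU).differentiableAt hp0 h5
  obtain ⟨δ, hδ, hleaf⟩ := leaf σ a₀ (hF s φ a₀ i e) x'
    (fun p hp => hsga j₀ p (hbU j₀ (hball hp)))
    (fun p hp a => hsb j₀ p (hball hp) a)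
    (by rw [hσe]; exact hs0) hon (fun p hp hp0 hps => by
      have hpU := hbU j₀ (hball hp)
      obtain ⟨hat, hinv⟩ := hUat j₀ p hpU
      have h0 : (s a₀).f i (e.symm p) ≠ 0 := hp0
      have hps' : Function.Surjective (fderiv ℂ (yq s a₀ i e) (e (e.symm p))) := by
        rw [show e (e.symm p) = p from hinv]; exact hps
      have c1 := hF_an (φ := φ) hW hR hk0 hat hpU.2 h0 hps'
      have c3 := hF_bound (φ := φ) hW hR hk0 hat hpU.2 h0 hps'
      refine ⟨?_, fun ξ hξ => ?_, ?_⟩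
      · rwa [show e (e.symm p) = p from hinv] at c1
      · have c2 := R0_ker (φ := φ) hW hR hk0 hat hpU.2 h0 hps' (ξ := ξ)
          (by rw [show e (e.symm p) = p from hinv]; exact hξ)
        rw [show e (e.symm p) = p from hinv] at c2
        exact c2
      · rw [show e (e.symm p) = p from hinv] at c3
        refine c3.trans ?_
        rw [hM]
        have : ∑ J : Fin R → Fin n, ‖φ.form i e p (fun l => Pi.single (J l) 1)‖ ^ 2 ≤
            ∑ _J : Fin R → Fin n, Mφ ^ 2 := Finset.sum_le_sum fun J _ =>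
          pow_le_pow_left₀ (norm_nonneg _) (hφb j₀ p (hball hp) J) 2
        linarith)
  -- the Jacobian
  set JJ : ℂ := (Matrix.of fun b j => fderiv ℂ (fun z' => F z' (a₀.succAbove b) / F z' a₀) z
      (Pi.single j 1) : Matrix (Fin R) (Fin R) ℂ).det with hJJ
  have hsx : Function.Surjective (fderiv ℂ (yq s a₀ i e) (e (f z))) :=
    hon x' hx'b (by rw [hσe]; exact hs0) rfl
  have hFeq := F_eq (φ := φ) hsu hW hR hk0 hx hfi hF0 hsx
  rw [← hJJ] at hFeq
  have hJ0 : JJ ≠ 0 := by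
    intro h
    rw [h, zero_pow hk0, mul_zero] at hFeq
    exact hF0 hFeq
  have hJp : 0 < ‖JJ‖ := norm_pos_iff.2 hJ0
  set κ : ℝ := kap n R A.c A.C * ‖JJ‖ ^ (2 / (R : ℝ)) with hκ
  have hκ0 : 0 < κ := by rw [hκ]; positivity
  -- the eventual conditions
  have hnFp : 0 < nF (F z) := by
    have h2 : ‖F z a₀‖ ^ 2 ≤ nF (F z) := Finset.single_le_sum (f := fun a => ‖F z a‖ ^ 2)
      (fun a _ => by positivity) (Finset.mem_univ a₀)
    have h3 : 0 < ‖F z a₀‖ ^ 2 := by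
      have := norm_pos_iff.2 hF0
      positivity
    linarith
  set η : ℝ := δ ^ 2 / MH ^ k * nF (F z) / (1 + nF (F z)) with hη
  have hη0 : 0 < η := by rw [hη]; positivity
  have hev2 : ∀ᶠ ε in 𝓝[>] (0 : ℝ), ε ≤ η := mem_nhdsWithin_of_mem_nhds (Iic_mem_nhds hη0)
  filter_upwards [hev1, hev2, sqrt_tendsto.eventually hleaf] with ε hε hεη hgl
  have hεs : ε = Real.sqrt ε ^ 2 := (Real.sq_sqrt hε.1.le).symm
  have hsε0 : 0 < Real.sqrt ε := Real.sqrt_pos.2 hε.1
  have hsε1 : Real.sqrt ε ≤ 1 := Real.sqrt_le_one.2 hε.2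
  -- the density
  set g : Cm n → ℝ := fun p => ∑ j, cfd (n - R + 1) (KJ C W (lamE ε P s F) e p z j)
    (hatM (W e p)) with hg
  have hgpt : ∀ p ∈ Metric.closedBall x' A.r, 0 ≤ g p := by
    intro p hp
    obtain ⟨hat, hinv⟩ := hUat j₀ p (hbU j₀ (hball hp))
    rw [hg]
    refine Finset.sum_nonneg fun j _ => ?_
    have := hHz0 ε hε.1 hε.2 j e (e.symm p) hat
    rwa [show e (e.symm p) = p from hinv] at this
  have hballt : Metric.closedBall x' A.r ⊆ e.target := hball.trans (A.sub j₀)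
  have hgj : ∀ j : Fin R, IntegrableOn (fun p => cfd (n - R + 1)
      (KJ C W (lamE ε P s F) e p z j) (hatM (W e p))) (Metric.closedBall x' A.r) := fun j =>
    (((hdens ε hε.1 hε.2 j).continuousOn (A.mem j₀)).mono hballt).integrableOn_compact
      (isCompact_closedBall _ _)
  have hgint : IntegrableOn g (Metric.closedBall x' A.r) := by
    rw [hg]
    exact integrable_finsetSum _ fun j _ => hgj j
  have hHz : ∫ p in Metric.closedBall x' A.r, g p ≤
      Hz (n - R + 1) C W (lamE ε P s F) z := by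
    rw [hg, integral_finsetSum _ fun j _ => hgj j]
    unfold Hz
    exact Finset.sum_le_sum fun j _ => H619.D.closedBall_le_intX (hdens ε hε.1 hε.2 j)
      (hHz0 ε hε.1 hε.2 j) (A.mem j₀) hballt
  -- the pointwise bound
  have hpt : ∀ p ∈ Metric.closedBall x' A.r, δ ≤ ‖σ p a₀‖ →
      ‖rat σ a₀ p - rat σ a₀ x'‖ ≤ Real.sqrt ε →
      (Real.sqrt ε)⁻¹ ^ (2 * R) * (H66.S7.JF (rat σ a₀) p *
        (H66.S7.JF (rat σ a₀) p)ᴴ).det.re ^ (((R : ℝ) - 1) / R) ≤ κ⁻¹ * g p := by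
    intro p hp hpδ hpd
    obtain ⟨hat, hinv⟩ := hUat j₀ p (hbU j₀ (hball hp))
    have hinv' : e (e.symm p) = p := hinv
    have hpi : e.symm p ∈ L.U i := (hbU j₀ (hball hp)).2
    have hp0 : (s a₀).f i (e.symm p) ≠ 0 := by
      intro h
      have h2 : ‖σ p a₀‖ = 0 := by
        show ‖(s a₀).f i (e.symm p)‖ = 0
        rw [h, norm_zero]
      linarith
    have hHp := HH_pos P hpi
    have hHle : HH P i (e.symm p) ≤ MH := hHb j₀ p (hball hp)
    have hN : ε ^ 2 * (1 + nF (F z)) ≤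
        nW P s (F z) (e.symm p) + ε * nS P s (e.symm p) * nF (F z) := by
      have b1 : 0 ≤ nW P s (F z) (e.symm p) := by
        rw [nW_eq P (F z) hpi]
        have : (0 : ℝ) ≤ ∑ a, ∑ b, ‖(s a).f i (e.symm p) * F z b - (s b).f i (e.symm p) * F z a‖ ^ 2 :=
          Finset.sum_nonneg fun a _ => Finset.sum_nonneg fun b _ => by positivity
        positivity
      have b2 : δ ^ 2 / MH ^ k ≤ nS P s (e.symm p) := by
        rw [nS_eq P hpi]
        have b3 : δ ^ 2 ≤ ∑ a, ‖(s a).f i (e.symm p)‖ ^ 2 := by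
          have b4 : ‖(s a₀).f i (e.symm p)‖ ^ 2 ≤ ∑ a, ‖(s a).f i (e.symm p)‖ ^ 2 :=
            Finset.single_le_sum (f := fun a => ‖(s a).f i (e.symm p)‖ ^ 2)
              (fun a _ => by positivity) (Finset.mem_univ a₀)
          exact (pow_le_pow_left₀ hδ.le hpδ 2).trans b4
        exact div_le_div₀ ((by positivity : (0 : ℝ) ≤ δ ^ 2).trans b3) b3 (by positivity)
          (pow_le_pow_left₀ hHp.le hHle k)
      have b5 : ε * (1 + nF (F z)) ≤ δ ^ 2 / MH ^ k * nF (F z) := by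
        rw [hη, le_div_iff₀ (by positivity)] at hεη
        exact hεη
      have b6 : δ ^ 2 / MH ^ k * nF (F z) ≤ nS P s (e.symm p) * nF (F z) :=
        mul_le_mul_of_nonneg_right b2 hnFp.le
      have b7 := mul_le_mul_of_nonneg_left (b5.trans b6) hε.1.le
      calc _ = ε * (ε * (1 + nF (F z))) := by ring
        _ ≤ ε * (nS P s (e.symm p) * nF (F z)) := b7
        _ ≤ _ := by linarith
    have key := point_lower (n := n) (x := e.symm p) P hG hW hR hRn A.hc A.hC hat hpi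
      (by rw [hinv']; exact A.lo j₀ p (hball hp)) (by rw [hinv']; exact A.hi j₀ p (hball hp))
      (F := F) (z := z) (C := C) (ε := ε) (δ := Real.sqrt ε) hp0 hF0 hmax' hsε0 hsε1 hεs
      (by rw [hinv', ← hratx]; exact hpd) hN
      (fun j => g2 C hc2 F hsu.hF ε hε.1 hε.2 e (e.symm p) i z a₀ hat hpi hp0 hF0 j)
    rw [hinv'] at key
    rw [← hJJ, ← hκ] at key
    have h8 := mul_le_mul_of_nonneg_left key (inv_nonneg.2 hκ0.le)
    rw [← mul_assoc, inv_mul_cancel₀ hκ0.ne', one_mul] at h8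
    exact h8
  have hfin := hgl (fun p => κ⁻¹ * g p) (hgint.const_mul _)
    (fun p hp => mul_nonneg (inv_nonneg.2 hκ0.le) (hgpt p hp)) hpt
  rw [integral_const_mul] at hfin
  -- the end
  have hR0eq : σ x' a₀ * hF s φ a₀ i e x' ^ k = R0 s φ a₀ i e (e (f z)) := rfl
  rw [hR0eq] at hfin
  have h9 : κ * (cL * ‖R0 s φ a₀ i e (e (f z))‖ ^ (2 / ((k : ℝ) * R))) ≤
      ∫ p in Metric.closedBall x' A.r, g p := by
    have := mul_le_mul_of_nonneg_left hfin hκ0.le
    rwa [← mul_assoc κ κ⁻¹, mul_inv_cancel₀ hκ0.ne', one_mul] at this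
  refine le_trans ?_ (h9.trans hHz)
  have h10 : ‖JJ‖ ^ (2 / (R : ℝ)) * ‖R0 s φ a₀ i e (e (f z))‖ ^ (2 / ((k : ℝ) * R)) =
      (‖F z a₀‖ ^ 2) ^ α := by
    have e1 : ‖JJ‖ ^ (2 / (R : ℝ)) = (‖JJ‖ ^ k) ^ (2 / ((k : ℝ) * R)) := by
      rw [← Real.rpow_natCast, ← Real.rpow_mul hJp.le]
      congr 1
      field_simp
    rw [e1, ← Real.mul_rpow (by positivity) (norm_nonneg _)]
    have e2 : ‖JJ‖ ^ k * ‖R0 s φ a₀ i e (e (f z))‖ = ‖F z a₀‖ := by
      rw [hFeq, norm_mul, norm_pow, mul_comm]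
    rw [e2, ← Real.rpow_natCast ‖F z a₀‖ 2, ← Real.rpow_mul (norm_nonneg _)]
    congr 1
    rw [hα]
    push_cast
    field_simp
  have h11 : (((R : ℝ) + 1)⁻¹) ^ α * nF (F z) ^ α ≤ (‖F z a₀‖ ^ 2) ^ α := by
    rw [← Real.mul_rpow (by positivity) hnFp.le]
    refine Real.rpow_le_rpow (by positivity) ?_ hα0.le
    have h12 : nF (F z) ≤ ((R : ℝ) + 1) * ‖F z a₀‖ ^ 2 := by
      calc nF (F z) ≤ ∑ _a : Fin (R + 1), ‖F z a₀‖ ^ 2 :=
            Finset.sum_le_sum fun a _ => pow_le_pow_left₀ (norm_nonneg _) (hmax' a) 2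
        _ = _ := by
          rw [Finset.sum_const, Finset.card_univ, Fintype.card_fin, nsmul_eq_mul]; push_cast; ring
    rw [inv_mul_le_iff₀ (by positivity)]
    exact h12
  calc kap n R A.c A.C * cL * (((R : ℝ) + 1)⁻¹) ^ α * nF (F z) ^ α
      = kap n R A.c A.C * cL * ((((R : ℝ) + 1)⁻¹) ^ α * nF (F z) ^ α) := by ring
    _ ≤ kap n R A.c A.C * cL * (‖F z a₀‖ ^ 2) ^ α :=
        mul_le_mul_of_nonneg_left h11 (by positivity)
    _ = κ * (cL * ‖R0 s φ a₀ i e (e (f z))‖ ^ (2 / ((k : ℝ) * R))) := by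
        rw [← h10, hκ]; ring

theorem gramStmt : GramStmt :=
  ⟨fun _ _ _ _ hC hw h G => H837.D.gram_ge hC hw h G, fun _ _ _ hc h => H837.D.det_ge hc h⟩

/-- **E7** from LEAF, E1, E1b -/
theorem e7_of_leaf (h1 : E1Stmt) (h1b : E1bStmt) (hL : LeafStmt) : E7Stmt :=
  e7_of gramStmt h1 h1b hL

end Vale.Agent.P284.H691.D
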