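import Vale.Agent.P284.H279.K.OmK
import Vale.Agent.P284.H752.K1
import Vale.Agent.P284.H366.LA1
import Vale.Agent.P284.H66.S7bLoc
import Vale.Agent.P284.H451.D.Cone

/-!
# P284 (helper691), project D, module E7: `φ = h dy_1 ∧ … ∧ dy_R`, `y_b = s_b / s_{a₀}`
-/

open scoped Manifold ContDiff Topology ComplexOrder ComplexConjugate Matrix
open Filter Set MeasureTheory

noncomputable section

namespace Vale.Agent.P284.H691.D

open Vale.Agent.P272.K Vale.Agent.P272.K.INT Vale.Agent.P272.KOD Vale.Agent.P284.H206.Bog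
  Vale.Agent.P284.H248 Vale.Agent.P284.H608.K Vale.Agent.P284.H206.Sp Vale.Agent.P284.H206
  Vale.Agent.P284.H279.K

variable {n R : ℕ} {X : Type} [TopologicalSpace X] [ChartedSpace (Cm n) X]
  {L : LineBundle n X} {k : ℕ}

/-- the ratios `s_b / s_{a₀}` in a chart -/
def yq (s : Fin (R + 1) → Sec L k) (a₀ : Fin (R + 1)) (i : L.ι) (e : Chart n X) (z : Cm n) : Cm R :=
  fun b => (s (a₀.succAbove b)).f i (e.symm z) / (s a₀).f i (e.symm z)

open Classical in
/-- the function `h` with `φ = h dy_1 ∧ … ∧ dy_R` -/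
def hF (s : Fin (R + 1) → Sec L k) (φ : Mor L R) (a₀ : Fin (R + 1)) (i : L.ι) (e : Chart n X)
    (z : Cm n) : ℂ :=
  if h : Function.Surjective (fderiv ℂ (yq s a₀ i e) z) then
    φ.form i e z (fun b => Classical.choose (h (Pi.single b 1))) else 0

section basic
variable [IsManifold 𝓘(ℂ, Cm n) ω X] {s : Fin (R + 1) → Sec L k} {φ : Mor L R}
  {a₀ : Fin (R + 1)} {i : L.ι} {e : Chart n X} {x : X}

omit [IsManifold 𝓘(ℂ, Cm n) ω X] in
theorem yq_an (hx : At e x) (hi : x ∈ L.U i) (h0 : (s a₀).f i x ≠ 0) :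
    AnalyticAt ℂ (yq s a₀ i e) (e x) := by
  rw [analyticAt_pi_iff]
  intro b
  have h1 := ((s (a₀.succAbove b)).holo i e x hx hi).analyticAt
  have h2 := ((s a₀).holo i e x hx hi).analyticAt
  have h3 : (s a₀).f i (e.symm (e x)) ≠ 0 := by rwa [hx.left_inv]
  exact h1.div h2 h3

omit [IsManifold 𝓘(ℂ, Cm n) ω X] in
theorem fderiv_yq (hx : At e x) (hi : x ∈ L.U i) (h0 : (s a₀).f i x ≠ 0) (b : Fin R) (v : Cm n) :
    fderiv ℂ (yq s a₀ i e) (e x) v b = dq (s a₀) (s (a₀.succAbove b)) i e (e x) v := by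
  have h1 := (yq_an (s := s) hx hi h0).differentiableAt.hasFDerivAt
  have h2 : HasFDerivAt (fun z => yq s a₀ i e z b)
      ((ContinuousLinearMap.proj (R := ℂ) (φ := fun _ : Fin R => ℂ) b).comp
        (fderiv ℂ (yq s a₀ i e) (e x))) (e x) :=
    (ContinuousLinearMap.proj (R := ℂ) (φ := fun _ : Fin R => ℂ) b).hasFDerivAt.comp (e x) h1
  have h3 : dq (s a₀) (s (a₀.succAbove b)) i e (e x) =
      (ContinuousLinearMap.proj (R := ℂ) (φ := fun _ : Fin R => ℂ) b).comp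
        (fderiv ℂ (yq s a₀ i e) (e x)) := h2.fderiv
  rw [h3]
  rfl

variable [T2Space X] [CompactSpace X] {w : Chart n X → Cm n → Matrix (Fin n) (Fin n) ℂ}

/-- **(F1)** `φ = h dy_1 ∧ … ∧ dy_R` -/
theorem form_eq (hw : IsKahler w) (hR : 1 ≤ R) (hk : k ≠ 0) (hx : At e x) (hi : x ∈ L.U i)
    (h0 : (s a₀).f i x ≠ 0) {E : Fin R → Cm n}
    (hE : ∀ a b, fderiv ℂ (yq s a₀ i e) (e x) (E b) a = if a = b then 1 else 0)
    (v : Fin R → Cm n) :
    φ.form i e (e x) v = φ.form i e (e x) E *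
      (Matrix.of fun b l => fderiv ℂ (yq s a₀ i e) (e x) (v l) b).det := by
  obtain ⟨r, rfl⟩ : ∃ r, R = r + 1 := ⟨R - 1, by omega⟩
  set θ : Fin (r + 1) → Cm n →ₗ[ℂ] ℂ := fun b =>
    (dq (s a₀) (s (a₀.succAbove b)) i e (e x)).toLinearMap with hθ
  have hθa : ∀ b v, θ b v = fderiv ℂ (yq s a₀ i e) (e x) v b := fun b v =>
    (fderiv_yq hx hi h0 b v).symm
  have h1 : ∀ a, wd (θ a) (φ.form i e (e x)) = 0 := fun a =>
    OmK_zero Vale.Agent.P284.H752.k1Stmt hw φ hk (s a₀) (s (a₀.succAbove a)) hx hi h0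
  have h2 := divide h1 (E := E) (fun a b => by rw [hθa, hE]) v
  rw [h2]
  congr 2
  ext a l
  rw [Matrix.of_apply, Matrix.of_apply, hθa]

omit [IsManifold 𝓘(ℂ, Cm n) ω X] [T2Space X] [CompactSpace X] in
theorem hF_eq {z : Cm n} (hs : Function.Surjective (fderiv ℂ (yq s a₀ i e) z)) :
    ∃ E : Fin R → Cm n, (∀ a b, fderiv ℂ (yq s a₀ i e) z (E b) a = if a = b then 1 else 0) ∧
      hF s φ a₀ i e z = φ.form i e z E := by
  refine ⟨fun b => Classical.choose (hs (Pi.single b 1)), fun a b => ?_, ?_⟩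
  · rw [Classical.choose_spec (hs (Pi.single b 1)), Pi.single_apply]
  · rw [hF, dif_pos hs]

theorem form_hF (hw : IsKahler w) (hR : 1 ≤ R) (hk : k ≠ 0) (hx : At e x) (hi : x ∈ L.U i)
    (h0 : (s a₀).f i x ≠ 0) (hs : Function.Surjective (fderiv ℂ (yq s a₀ i e) (e x)))
    (v : Fin R → Cm n) :
    φ.form i e (e x) v = hF s φ a₀ i e (e x) *
      (Matrix.of fun b l => fderiv ℂ (yq s a₀ i e) (e x) (v l) b).det := by
  obtain ⟨E, hE, hE2⟩ := hF_eq (φ := φ) hs
  rw [hE2]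
  exact form_eq hw hR hk hx hi h0 hE v

omit [IsManifold 𝓘(ℂ, Cm n) ω X] [T2Space X] [CompactSpace X] in
theorem ev_good (hx : At e x) (hi : x ∈ L.U i) (h0 : (s a₀).f i x ≠ 0)
    (hs : Function.Surjective (fderiv ℂ (yq s a₀ i e) (e x))) :
    ∀ᶠ z in 𝓝 (e x), z ∈ e.target ∧ At e (e.symm z) ∧ e.symm z ∈ L.U i ∧
      (s a₀).f i (e.symm z) ≠ 0 ∧ Function.Surjective (fderiv ℂ (yq s a₀ i e) z) := by
  have h1 : ∀ᶠ z in 𝓝 (e x), (s a₀).f i (e.symm z) ≠ 0 := by
    have h2 := ((s a₀).holo i e x hx hi).continuousAt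
    refine h2.eventually_ne ?_
    rwa [hx.left_inv]
  have h2 : ContinuousAt (fderiv ℂ (yq s a₀ i e)) (e x) :=
    (yq_an (s := s) hx hi h0).fderiv.continuousAt
  have h3 : ∀ᶠ z in 𝓝 (e x), Function.Surjective (fderiv ℂ (yq s a₀ i e) z) := by
    choose E hE using fun b : Fin R => hs (Pi.single b 1)
    have h4 : ContinuousAt (fun z => (Matrix.of fun b l =>
        fderiv ℂ (yq s a₀ i e) z (E l) b : Matrix (Fin R) (Fin R) ℂ).det) (e x) := by
      have h5 : ContinuousAt (fun z => (Matrix.of fun b l =>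
        fderiv ℂ (yq s a₀ i e) z (E l) b : Matrix (Fin R) (Fin R) ℂ)) (e x) := by
        refine continuousAt_pi.2 fun b => continuousAt_pi.2 fun l => ?_
        have h6 : ContinuousAt (fun z => fderiv ℂ (yq s a₀ i e) z (E l)) (e x) :=
          h2.clm_apply continuousAt_const
        exact (continuousAt_pi.1 h6) b
      exact (Continuous.matrix_det continuous_id).continuousAt.comp h5
    have h7 : (Matrix.of fun b l => fderiv ℂ (yq s a₀ i e) (e x) (E l) b :
        Matrix (Fin R) (Fin R) ℂ).det ≠ 0 := by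
      have : (Matrix.of fun b l => fderiv ℂ (yq s a₀ i e) (e x) (E l) b :
        Matrix (Fin R) (Fin R) ℂ) = 1 := by
        ext b l
        rw [Matrix.of_apply, hE, Matrix.one_apply, Pi.single_apply]
      rw [this, Matrix.det_one]
      exact one_ne_zero
    filter_upwards [h4.eventually_ne h7] with z hz
    exact (Vale.Agent.P284.H451.D.surj_iff_det _).2 ⟨E, hz⟩
  filter_upwards [ev_U hx (L.isOpen i) hi, h1, h3] with z a1 a2 a3
  exact ⟨a1.1, a1.2.1, a1.2.2, a2, a3⟩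

/-- **(F2)** `h` is holomorphic -/
theorem hF_an (hw : IsKahler w) (hR : 1 ≤ R) (hk : k ≠ 0) (hx : At e x) (hi : x ∈ L.U i)
    (h0 : (s a₀).f i x ≠ 0) (hs : Function.Surjective (fderiv ℂ (yq s a₀ i e) (e x))) :
    AnalyticAt ℂ (hF s φ a₀ i e) (e x) := by
  choose E hE using fun b : Fin R => hs (Pi.single b 1)
  set D : Cm n → ℂ := fun z => (Matrix.of fun b l => fderiv ℂ (yq s a₀ i e) z (E l) b :
    Matrix (Fin R) (Fin R) ℂ).det with hD
  have hya := yq_an (s := s) hx hi h0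
  have hDa : AnalyticAt ℂ D (e x) := by
    have h1 : ∀ b l, AnalyticAt ℂ (fun z => fderiv ℂ (yq s a₀ i e) z (E l) b) (e x) := by
      intro b l
      have h2 : AnalyticAt ℂ (fun z => fderiv ℂ (yq s a₀ i e) z (E l)) (e x) :=
        ((ContinuousLinearMap.apply ℂ (Cm R) (E l)).analyticAt _).comp hya.fderiv
      exact ((ContinuousLinearMap.proj (R := ℂ) (φ := fun _ : Fin R => ℂ) b).analyticAt _).comp h2
    have h3 : D = fun z => ∑ σ : Equiv.Perm (Fin R), ((Equiv.Perm.sign σ : ℤ) : ℂ) *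
        ∏ l, fderiv ℂ (yq s a₀ i e) z (E l) (σ l) := by
      funext z
      rw [hD]
      simp only [Matrix.det_apply', Matrix.of_apply]
    rw [h3]
    refine Finset.analyticAt_fun_sum _ fun σ _ => analyticAt_const.mul ?_
    exact Finset.analyticAt_fun_prod _ fun l _ => h1 _ _
  have hD0 : D (e x) ≠ 0 := by
    have : (Matrix.of fun b l => fderiv ℂ (yq s a₀ i e) (e x) (E l) b :
        Matrix (Fin R) (Fin R) ℂ) = 1 := by
      ext b l
      rw [Matrix.of_apply, hE, Matrix.one_apply, Pi.single_apply]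
    rw [hD]
    simp only
    rw [this, Matrix.det_one]
    exact one_ne_zero
  have hφ := (φ.holo i e x hx hi E).analyticAt
  refine (hφ.div hDa hD0).congr ?_
  filter_upwards [ev_good hx hi h0 hs, hDa.continuousAt.eventually_ne hD0] with z hz hz2
  obtain ⟨b1, b2, b3, b4, b5⟩ := hz
  have h4 := form_hF (φ := φ) hw hR hk b2 b3 b4 (by rwa [e.right_inv b1]) E
  rw [e.right_inv b1] at h4
  rw [Pi.div_apply, h4]
  exact mul_div_cancel_right₀ _ hz2

/-- **(F3)** the bound -/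
theorem hF_bound (hw : IsKahler w) (hR : 1 ≤ R) (hk : k ≠ 0) (hx : At e x) (hi : x ∈ L.U i)
    (h0 : (s a₀).f i x ≠ 0) (hs : Function.Surjective (fderiv ℂ (yq s a₀ i e) (e x))) :
    ‖hF s φ a₀ i e (e x)‖ ^ 2 * (Vale.Agent.P284.H66.S7.JF (yq s a₀ i e) (e x) *
      (Vale.Agent.P284.H66.S7.JF (yq s a₀ i e) (e x))ᴴ).det.re ≤
      ∑ J : Fin R → Fin n, ‖φ.form i e (e x) (fun l => Pi.single (J l) 1)‖ ^ 2 := by
  have hya := yq_an (s := s) hx hi h0
  set A : Matrix (Fin R) (Fin n) ℂ := Vale.Agent.P284.H66.S7.JF (yq s a₀ i e) (e x) with hA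
  have hAe : ∀ b l, A b l = fderiv ℂ (yq s a₀ i e) (e x) (Pi.single l 1) b := by
    intro b l
    have h1 : HasFDerivAt (fun z => yq s a₀ i e z b)
        ((ContinuousLinearMap.proj (R := ℂ) (φ := fun _ : Fin R => ℂ) b).comp
          (fderiv ℂ (yq s a₀ i e) (e x))) (e x) :=
      (ContinuousLinearMap.proj (R := ℂ) (φ := fun _ : Fin R => ℂ) b).hasFDerivAt.comp (e x)
        hya.differentiableAt.hasFDerivAt
    show dz l (fun z => yq s a₀ i e z b) (e x) = _
    rw [Vale.Agent.P272.K.INT.dz_of_holo h1.differentiableAt, h1.fderiv]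
    rfl
  have h1 : (A * Aᴴ).det = (R.factorial : ℂ)⁻¹ *
      ∑ J : Fin R → Fin n, ((‖(A.submatrix id J).det‖ ^ 2 : ℝ) : ℂ) := by
    rw [Vale.Agent.P284.H366.cb]
    congr 1
    refine Finset.sum_congr rfl fun J _ => ?_
    have h2 : (Aᴴ.submatrix J id).det = conj (A.submatrix id J).det := by
      rw [← Matrix.conjTranspose_submatrix, Matrix.det_conjTranspose]
      rfl
    rw [h2, Complex.mul_conj, Complex.normSq_eq_norm_sq]
  have h2 : (A * Aᴴ).det.re = (R.factorial : ℝ)⁻¹ *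
      ∑ J : Fin R → Fin n, ‖(A.submatrix id J).det‖ ^ 2 := by
    rw [h1, ← Complex.ofReal_sum, ← Complex.ofReal_natCast, ← Complex.ofReal_inv,
      ← Complex.ofReal_mul, Complex.ofReal_re]
  have h3 : (A * Aᴴ).det.re ≤ ∑ J : Fin R → Fin n, ‖(A.submatrix id J).det‖ ^ 2 := by
    rw [h2]
    have h4 : (0 : ℝ) ≤ ∑ J : Fin R → Fin n, ‖(A.submatrix id J).det‖ ^ 2 :=
      Finset.sum_nonneg fun J _ => by positivity
    have h5 : ((R.factorial : ℝ)⁻¹) ≤ 1 := by
      have : (1 : ℝ) ≤ R.factorial := by exact_mod_cast Nat.one_le_iff_ne_zero.2 (Nat.factorial_ne_zero R)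
      exact inv_le_one_of_one_le₀ this
    calc _ ≤ 1 * ∑ J : Fin R → Fin n, ‖(A.submatrix id J).det‖ ^ 2 :=
          mul_le_mul_of_nonneg_right h5 h4
      _ = _ := one_mul _
  calc _ ≤ ‖hF s φ a₀ i e (e x)‖ ^ 2 * ∑ J : Fin R → Fin n, ‖(A.submatrix id J).det‖ ^ 2 :=
        mul_le_mul_of_nonneg_left h3 (by positivity)
    _ = _ := by
      rw [Finset.mul_sum]
      refine Finset.sum_congr rfl fun J _ => ?_
      have h6 : (Matrix.of fun b l => fderiv ℂ (yq s a₀ i e) (e x)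
          ((Pi.single (J l) 1 : Cm n)) b : Matrix (Fin R) (Fin R) ℂ) = A.submatrix id J := by
        ext b l
        rw [Matrix.submatrix_apply, Matrix.of_apply, hAe]
        rfl
      rw [form_hF (φ := φ) hw hR hk hx hi h0 hs, norm_mul, mul_pow, h6]

end basic

end Vale.Agent.P284.H691.D
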