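import Vale.Agent.P284.H691.D.Basic

/-!
# P284 (helper691), project D, module E7: `R₀ = s_{a₀} h^k` is constant along the fibres
-/

open scoped Manifold ContDiff Topology ComplexOrder ComplexConjugate Matrix
open Filter Set MeasureTheory

noncomputable section

namespace Vale.Agent.P284.H691.D

open Vale.Agent.P272.K Vale.Agent.P272.K.INT Vale.Agent.P272.KOD Vale.Agent.P284.H206.Bog
  Vale.Agent.P284.H248 Vale.Agent.P284.H608.K Vale.Agent.P284.H206.Sp Vale.Agent.P284.H206
  Vale.Agent.P284.H279.K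

/-- the determinant form on `ℂ^R` -/
def detAf (R : ℕ) : Af R R := toAf (n := R) (p := R) (Pi.basisFun ℂ (Fin R)).det

theorem detAf_apply {R : ℕ} (v : Fin R → Cm R) :
    detAf R v = (Matrix.of fun b l => v l b : Matrix (Fin R) (Fin R) ℂ).det := by
  show (Pi.basisFun ℂ (Fin R)).det v = _
  rw [Module.Basis.det_apply]
  congr 1

section
variable {n R : ℕ}

/-- `dy_1 ∧ … ∧ dy_R` is closed -/
theorem closed_dY {G : Cm n → Cm R} {p : Cm n} (hG : AnalyticAt ℂ G p) :
    extDeriv (fun z => (detAf R).compContinuousLinearMap (fderiv ℂ G z)) p = 0 := by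
  have hc : DifferentiableAt ℂ (fun _ : Cm R => detAf R) (G p) := differentiableAt_const _
  have h1 := extDeriv_pullback (r := ω) hc hG.contDiffAt (by exact le_top)
  rw [h1]
  have h2 : extDeriv (fun _ : Cm R => detAf R) (G p) = 0 := by
    unfold extDeriv
    rw [fderiv_const_apply]
    ext v
    simp [ContinuousAlternatingMap.alternatizeUncurryFin_apply]
  rw [h2]
  rfl

theorem smooth_dY {G : Cm n → Cm R} {p : Cm n} (hG : AnalyticAt ℂ G p) :
    DifferentiableAt ℂ (fun z => (detAf R).compContinuousLinearMap (fderiv ℂ G z)) p := by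
  have h1 : ContDiffAt ℂ ω (fun z => (detAf R).compContinuousLinearMap (fderiv ℂ G z)) p := by
    refine Af_contDiffC fun t => ?_
    set v : Fin R → Cm n := fun l => Pi.single (t l) 1 with hv
    have h2 : (fun z => ev ((detAf R).compContinuousLinearMap (fderiv ℂ G z)) t) = fun z =>
        ∑ σ : Equiv.Perm (Fin R), ((Equiv.Perm.sign σ : ℤ) : ℂ) *
          ∏ l, fderiv ℂ G z (v l) (σ l) := by
      funext z
      have : ev ((detAf R).compContinuousLinearMap (fderiv ℂ G z)) t =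
          detAf R (fun l => fderiv ℂ G z (v l)) := rfl
      rw [this, detAf_apply, Matrix.det_apply']
      simp only [Matrix.of_apply]
    rw [h2]
    have h3 : ∀ l b, AnalyticAt ℂ (fun z => fderiv ℂ G z (v l) b) p := by
      intro l b
      have h4 : AnalyticAt ℂ (fun z => fderiv ℂ G z (v l)) p :=
        ((ContinuousLinearMap.apply ℂ (Cm R) (v l)).analyticAt _).comp hG.fderiv
      exact ((ContinuousLinearMap.proj (R := ℂ) (φ := fun _ : Fin R => ℂ) b).analyticAt _).comp h4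
    exact (Finset.analyticAt_fun_sum _ fun σ _ => analyticAt_const.mul
      (Finset.analyticAt_fun_prod _ fun l _ => h3 _ _)).contDiffAt
  exact h1.differentiableAt (by simp)

/-- if `ρ dy_1 ∧ … ∧ dy_R` is closed then `dρ = 0` on `ker dy` -/
theorem ker_of_closed {G : Cm n → Cm R} {ρ : Cm n → ℂ} {p : Cm n} (hG : AnalyticAt ℂ G p)
    (hs : Function.Surjective (fderiv ℂ G p)) (hρ : DifferentiableAt ℂ ρ p)
    (hcl : extDeriv (fun z => ρ z • (detAf R).compContinuousLinearMap (fderiv ℂ G z)) p = 0)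
    {ξ : Cm n} (hξ : fderiv ℂ G p ξ = 0) : fderiv ℂ ρ p ξ = 0 := by
  rw [extDeriv_fmul hρ (smooth_dY hG), closed_dY hG, smul_zero, zero_add] at hcl
  choose E hE using fun a : Fin R => hs (Pi.single a 1)
  have h1 := congrArg (fun A : Af n (R + 1) => A (Fin.cons ξ E)) hcl
  simp only [ContinuousAlternatingMap.alternatizeUncurryFin_apply] at h1
  rw [Fin.sum_univ_succ] at h1
  have h2 : ∀ (j : Fin (R + 1)), ((fderiv ℂ ρ p).smulRight
      ((detAf R).compContinuousLinearMap (fderiv ℂ G p)) ((Fin.cons ξ E : Fin (R + 1) → Cm n) j))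
        (j.removeNth (Fin.cons ξ E : Fin (R + 1) → Cm n)) =
      fderiv ℂ ρ p ((Fin.cons ξ E : Fin (R + 1) → Cm n) j) *
        detAf R (fun l => fderiv ℂ G p ((Fin.cons ξ E : Fin (R + 1) → Cm n) (j.succAbove l))) :=
    fun j => rfl
  simp only [h2] at h1
  have h3 : detAf R (fun l => fderiv ℂ G p ((Fin.cons ξ E : Fin (R + 1) → Cm n)
      ((0 : Fin (R + 1)).succAbove l))) = 1 := by
    rw [detAf_apply]
    have : (Matrix.of fun b l => fderiv ℂ G p ((Fin.cons ξ E : Fin (R + 1) → Cm n)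
      ((0 : Fin (R + 1)).succAbove l)) b : Matrix (Fin R) (Fin R) ℂ) = 1 := by
      ext b l
      rw [Matrix.of_apply, Fin.succAbove_zero, Fin.cons_succ, hE, Matrix.one_apply, Pi.single_apply]
    rw [this, Matrix.det_one]
  have h4 : ∀ j : Fin R, detAf R (fun l => fderiv ℂ G p ((Fin.cons ξ E : Fin (R + 1) → Cm n)
      (j.succ.succAbove l))) = 0 := by
    intro j
    have : NeZero R := ⟨by have := j.isLt; omega⟩
    rw [detAf_apply]
    refine Matrix.det_eq_zero_of_column_eq_zero 0 fun b => ?_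
    rw [Matrix.of_apply, Fin.succAbove_ne_zero_zero (Fin.succ_ne_zero j), Fin.cons_zero, hξ]
    rfl
  simp only [h4, mul_zero, smul_zero, Finset.sum_const_zero, add_zero, Fin.val_zero, pow_zero,
    one_smul, Fin.cons_zero] at h1
  rw [h3, mul_one] at h1
  exact h1

/-- ratios of a map with `(a, ξ) ↦ a σ + dσ ξ` onto -/
theorem surj_ratio {σ : Cm n → Cm (R + 1)} {p : Cm n} {a₀ : Fin (R + 1)}
    (hσ : DifferentiableAt ℂ σ p) (h0 : σ p a₀ ≠ 0)
    (hs : Function.Surjective (Vale.Agent.P284.H451.D.LF σ p)) :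
    Function.Surjective (fderiv ℂ (fun z => fun b : Fin R => σ z (a₀.succAbove b) / σ z a₀) p) := by
  intro η
  have hc : ∀ a, HasFDerivAt (fun z => σ z a)
      ((ContinuousLinearMap.proj (R := ℂ) (φ := fun _ : Fin (R + 1) => ℂ) a).comp
        (fderiv ℂ σ p)) p := fun a =>
    (ContinuousLinearMap.proj (R := ℂ) (φ := fun _ : Fin (R + 1) => ℂ) a).hasFDerivAt.comp p
      hσ.hasFDerivAt
  set Y : Cm n → Cm R := fun z => fun b : Fin R => σ z (a₀.succAbove b) / σ z a₀ with hY
  have hYd : DifferentiableAt ℂ Y p := by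
    rw [differentiableAt_pi]
    intro b
    have e1 : DifferentiableAt ℂ (fun z => σ z (a₀.succAbove b)) p := (hc _).differentiableAt
    have e2 : DifferentiableAt ℂ (fun z => σ z a₀) p := (hc _).differentiableAt
    have e3 : (fun z => Y z b) = fun z => σ z (a₀.succAbove b) * (σ z a₀)⁻¹ := by
      funext z
      rw [hY]
      exact div_eq_mul_inv _ _
    rw [e3]
    exact e1.mul (e2.inv h0)
  have hd : ∀ (b : Fin R) (ξ : Cm n), fderiv ℂ Y p ξ b * σ p a₀ + Y p b * fderiv ℂ σ p ξ a₀ =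
      fderiv ℂ σ p ξ (a₀.succAbove b) := by
    intro b ξ
    have e1 : HasFDerivAt (fun z => Y z b)
        ((ContinuousLinearMap.proj (R := ℂ) (φ := fun _ : Fin R => ℂ) b).comp (fderiv ℂ Y p)) p :=
      (ContinuousLinearMap.proj (R := ℂ) (φ := fun _ : Fin R => ℂ) b).hasFDerivAt.comp p
        hYd.hasFDerivAt
    have e2 := e1.mul (hc a₀)
    have e3 : (fun z => σ z (a₀.succAbove b)) =ᶠ[𝓝 p] (fun z => Y z b) * fun z => σ z a₀ := by
      filter_upwards [(hc a₀).continuousAt.eventually_ne h0] with z hz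
      rw [Pi.mul_apply, hY]
      simp only
      rw [div_mul_cancel₀ _ hz]
    have e4 := (e2.congr_of_eventuallyEq e3).unique (hc (a₀.succAbove b))
    have e5 := congrArg (fun (F : Cm n →L[ℂ] ℂ) => F ξ) e4
    simp only [_root_.add_apply, _root_.smul_apply, ContinuousLinearMap.comp_apply, smul_eq_mul,
      ContinuousLinearMap.proj_apply] at e5
    rw [← e5]
    ring
  obtain ⟨⟨a, ξ⟩, ha⟩ := hs (a₀.insertNth 0 fun b => σ p a₀ * η b)
  rw [Vale.Agent.P284.H451.D.LF_apply] at ha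
  have h1 : a * σ p a₀ + fderiv ℂ σ p ξ a₀ = 0 := by
    have := congrFun ha a₀
    rwa [Fin.insertNth_apply_same] at this
  have h2 : ∀ b : Fin R, a * σ p (a₀.succAbove b) + fderiv ℂ σ p ξ (a₀.succAbove b) =
      σ p a₀ * η b := by
    intro b
    have := congrFun ha (a₀.succAbove b)
    rwa [Fin.insertNth_apply_succAbove] at this
  refine ⟨ξ, ?_⟩
  funext b
  have h3 : fderiv ℂ σ p ξ a₀ = -(a * σ p a₀) := by linear_combination h1
  have h5 := hd b ξ
  have h6 : Y p b * σ p a₀ = σ p (a₀.succAbove b) := div_mul_cancel₀ _ h0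
  have h7 : (fderiv ℂ Y p ξ b - η b) * σ p a₀ = 0 := by
    rw [h3] at h5
    linear_combination h5 + h2 b + a * h6
  rcases mul_eq_zero.1 h7 with h8 | h8
  · exact sub_eq_zero.1 h8
  · exact absurd h8 h0

end

variable {n R : ℕ} {X : Type} [TopologicalSpace X] [ChartedSpace (Cm n) X]
  {L : LineBundle n X} {k : ℕ} [IsManifold 𝓘(ℂ, Cm n) ω X] {s : Fin (R + 1) → Sec L k}
  {φ : Mor L R} {a₀ : Fin (R + 1)} {i : L.ι} {e : Chart n X} {x : X}
  [T2Space X] [CompactSpace X] {w : Chart n X → Cm n → Matrix (Fin n) (Fin n) ℂ}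

/-- the basic function -/
def R0 (s : Fin (R + 1) → Sec L k) (φ : Mor L R) (a₀ : Fin (R + 1)) (i : L.ι) (e : Chart n X)
    (z : Cm n) : ℂ := (s a₀).f i (e.symm z) * hF s φ a₀ i e z ^ k

/-- **(F4)** `R₀` is constant along the fibres -/
theorem R0_ker (hw : IsKahler w) (hR : 1 ≤ R) (hk : k ≠ 0) (hx : At e x) (hi : x ∈ L.U i)
    (h0 : (s a₀).f i x ≠ 0) (hs : Function.Surjective (fderiv ℂ (yq s a₀ i e) (e x)))
    {ξ : Cm n} (hξ : fderiv ℂ (yq s a₀ i e) (e x) ξ = 0) :
    fderiv ℂ (R0 s φ a₀ i e) (e x) ξ = 0 := by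
  have hsh := (s a₀).holo i e x hx hi
  have hs1 : (s a₀).f i (e.symm (e x)) ≠ 0 := by rwa [hx.left_inv]
  obtain ⟨g, hg, hgk⟩ := exists_root hsh hs1 hk
  have hcl := closedK Vale.Agent.P284.H752.k1Stmt hw φ hk (s a₀) hx hi h0 hg hgk
  have hh := hF_an (φ := φ) hw hR hk hx hi h0 hs
  have hya := yq_an (s := s) hx hi h0
  have hgood := ev_good hx hi h0 hs
  have hev : (fun z => g z • toAf (φ.form i e z)) =ᶠ[𝓝 (e x)] fun z =>
      (g z * hF s φ a₀ i e z) • (detAf R).compContinuousLinearMap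
        (fderiv ℂ (yq s a₀ i e) z) := by
    filter_upwards [hgood] with z hz
    obtain ⟨b1, b2, b3, b4, b5⟩ := hz
    ext v
    have h4 := form_hF (φ := φ) hw hR hk b2 b3 b4 (by rwa [e.right_inv b1]) v
    rw [e.right_inv b1] at h4
    show g z * φ.form i e z v = g z * hF s φ a₀ i e z *
      detAf R (fun l => fderiv ℂ (yq s a₀ i e) z (v l))
    rw [h4, detAf_apply, mul_assoc]
  rw [hev.extDeriv_eq] at hcl
  have hgh : AnalyticAt ℂ (fun z => g z * hF s φ a₀ i e z) (e x) := hg.analyticAt.mul hh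
  have h1 := ker_of_closed hya hs hgh.differentiableAt hcl hξ
  have h2 : R0 s φ a₀ i e =ᶠ[𝓝 (e x)] fun z => (g z * hF s φ a₀ i e z) ^ k := by
    filter_upwards [hgk] with z hz
    rw [R0, mul_pow, hz]
  rw [h2.fderiv_eq, (hgh.differentiableAt.hasFDerivAt.pow k).fderiv]
  rw [_root_.smul_apply, h1, smul_zero]

theorem R0_an (hw : IsKahler w) (hR : 1 ≤ R) (hk : k ≠ 0) (hx : At e x) (hi : x ∈ L.U i)
    (h0 : (s a₀).f i x ≠ 0) (hs : Function.Surjective (fderiv ℂ (yq s a₀ i e) (e x))) :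
    AnalyticAt ℂ (R0 s φ a₀ i e) (e x) :=
  ((s a₀).holo i e x hx hi).analyticAt.mul ((hF_an (φ := φ) hw hR hk hx hi h0 hs).pow k)

end Vale.Agent.P284.H691.D
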