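import Vale.Agent.P284.H691.D.E7a
import Vale.Agent.P284.H837.D.Atlas

/-!
# P284 (helper691), project D, module E7: the pointwise lower bound near the leaf
-/

open scoped Manifold ContDiff Topology ComplexOrder ComplexConjugate Matrix
open Filter Set MeasureTheory

noncomputable section

namespace Vale.Agent.P284.H691.D

open Vale.Agent.P272.K Vale.Agent.P284.H248 Vale.Agent.P284.H206.K Vale.Agent.P284.H224.D
  Vale.Agent.P284.H661.D

/-- the Gram determinants -/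
def GramStmt : Prop :=
  (∀ (n R : ℕ) (w : Matrix (Fin n) (Fin n) ℂ) (C : ℝ), 0 < C → w.PosDef →
    ((C : ℂ) • (1 : Matrix (Fin n) (Fin n) ℂ) - w).PosSemidef → ∀ G : Matrix (Fin n) (Fin R) ℂ,
    C⁻¹ ^ R * (Gᴴ * G).det.re ≤ (Gᴴ * w⁻¹ * G).det.re) ∧
  (∀ (n : ℕ) (w : Matrix (Fin n) (Fin n) ℂ) (c : ℝ), 0 < c →
    (w - (c : ℂ) • (1 : Matrix (Fin n) (Fin n) ℂ)).PosSemidef → c ^ n ≤ w.det.re)

variable {n R k : ℕ} {X : Type} [TopologicalSpace X] [ChartedSpace (Cm n) X]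
  {L : LineBundle n X} {s : Fin (R + 1) → Sec L k} {a₀ : Fin (R + 1)} {i : L.ι} {e : Chart n X}
  {x : X} (P : LPart L)

theorem nW_eq [IsManifold 𝓘(ℂ, Cm n) ω X] (v : Cm (R + 1)) (hi : x ∈ L.U i) : nW P s v x =
    ((1 / 2) * ∑ a, ∑ b, ‖(s a).f i x * v b - (s b).f i x * v a‖ ^ 2) / HH P i x ^ k := by
  have hj := ixn_mem L x
  unfold nW
  rw [mul_div_assoc, Finset.sum_div]
  congr 1
  refine Finset.sum_congr rfl fun a _ => ?_
  rw [Finset.sum_div]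
  refine Finset.sum_congr rfl fun b _ => ?_
  rw [(s a).change _ i x hj hi, (s b).change _ i x hj hi, HH_change P hj hi]
  have h1 := norm_pos_iff.2 (L.ne_zero _ i x hj hi)
  have h2 := HH_pos P hi
  have h3 : L.g (ixn L x) i x ^ k * (s a).f i x * v b - L.g (ixn L x) i x ^ k * (s b).f i x * v a =
      L.g (ixn L x) i x ^ k * ((s a).f i x * v b - (s b).f i x * v a) := by ring
  rw [h3, norm_mul, norm_pow, mul_pow, mul_pow]
  have h4 : (‖L.g (ixn L x) i x‖ ^ k) ^ 2 = (‖L.g (ixn L x) i x‖ ^ 2) ^ k := by ring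
  rw [h4]
  field_simp

theorem nS_eq [IsManifold 𝓘(ℂ, Cm n) ω X] (hi : x ∈ L.U i) : nS P s x =
    (∑ a, ‖(s a).f i x‖ ^ 2) / HH P i x ^ k := by
  unfold nS
  rw [Finset.sum_div]
  exact Finset.sum_congr rfl fun a _ => GG_eq P (s a) hi

variable [IsManifold 𝓘(ℂ, Cm n) ω X]
  {W : Chart n X → Cm n → Matrix (Fin n) (Fin n) ℂ}

/-- the constant -/
def kap (n R : ℕ) (c C : ℝ) : ℝ :=
  R * c ^ n * (1 / (2 * (6 * ((R : ℝ) + 1) ^ 2) ^ 2)) ^ R * (C⁻¹ ^ R) ^ (((R : ℝ) - 1) / R)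

theorem kap_pos {n R : ℕ} {c C : ℝ} (hR : 1 ≤ R) (hc : 0 < c) (hC : 0 < C) : 0 < kap n R c C := by
  have hR0 : (0 : ℝ) < R := by exact_mod_cast hR
  unfold kap
  positivity

theorem point_lower (hG : GramStmt) (hw : IsKahler W) (hR : 1 ≤ R) (hRn : R ≤ n) {cw Cw : ℝ}
    (hcw : 0 < cw) (hCw : 0 < Cw) (hx : At e x) (hi : x ∈ L.U i)
    (hlo : (W e (e x) - (cw : ℂ) • (1 : Matrix (Fin n) (Fin n) ℂ)).PosSemidef)
    (hhi : ((Cw : ℂ) • (1 : Matrix (Fin n) (Fin n) ℂ) - W e (e x)).PosSemidef)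
    {F : Cm R → Cm (R + 1)} {z : Cm R} {C ε δ : ℝ} (hσ : (s a₀).f i x ≠ 0) (hv : F z a₀ ≠ 0)
    (hmax : ∀ a, ‖F z a‖ ≤ ‖F z a₀‖) (hδ0 : 0 < δ) (hδ1 : δ ≤ 1) (hε : ε = δ ^ 2)
    (hd : ‖yq s a₀ i e (e x) - rat F a₀ z‖ ≤ δ)
    (hN : ε ^ 2 * (1 + nF (F z)) ≤ nW P s (F z) x + ε * nS P s x * nF (F z))
    (hK : ∀ j : Fin R,
        let N₁ : ℝ := nW P s (F z) x + ε * nS P s x * nF (F z)
        let N₂ : ℝ := ε ^ 2 * (1 + nF (F z))
        let Q : ℝ := N₁ / (GG P (s a₀) x * ‖F z a₀‖ ^ 2)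
        let ev : Fin R → Cm (n + 1) := fun b => Fin.snoc
          (fun p : Fin n => -fderiv ℂ (fun y => (s (a₀.succAbove b)).f i (e.symm y) /
            (s a₀).f i (e.symm y)) (e x) (Pi.single p 1))
          (fderiv ℂ (fun z' => F z' (a₀.succAbove b) / F z' a₀) z (Pi.single j 1))
        (KJ C W (lamE ε P s F) e (e x) z j -
          ((N₁ / (N₁ + N₂) * (ε / Q ^ 2) : ℝ) : ℂ) •
            ∑ b, Matrix.vecMulVec (ev b) (star (ev b))).PosSemidef) :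
    kap n R cw Cw * ‖(Matrix.of fun b j => fderiv ℂ (fun z' => F z' (a₀.succAbove b) / F z' a₀) z
        (Pi.single j 1) : Matrix (Fin R) (Fin R) ℂ).det‖ ^ (2 / (R : ℝ)) *
      (δ⁻¹ ^ (2 * R) * (H66.S7.JF (yq s a₀ i e) (e x) *
        (H66.S7.JF (yq s a₀ i e) (e x))ᴴ).det.re ^ (((R : ℝ) - 1) / R)) ≤
      ∑ j, cfd (n - R + 1) (KJ C W (lamE ε P s F) e (e x) z j) (hatM (W e (e x))) := by
  have hR0 : (0 : ℝ) < R := by exact_mod_cast hR
  have hR1 : (1 : ℝ) ≤ R := by exact_mod_cast hR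
  have hε0 : 0 < ε := by rw [hε]; positivity
  have hH := HH_pos P hi
  have hHk : 0 < HH P i x ^ k := pow_pos hH k
  have hσp : 0 < ‖(s a₀).f i x‖ := norm_pos_iff.2 hσ
  have hvp : 0 < ‖F z a₀‖ := norm_pos_iff.2 hv
  set N₁ : ℝ := nW P s (F z) x + ε * nS P s x * nF (F z) with hN₁
  set N₂ : ℝ := ε ^ 2 * (1 + nF (F z)) with hN₂
  set Q : ℝ := N₁ / (GG P (s a₀) x * ‖F z a₀‖ ^ 2) with hQ
  have hGG : GG P (s a₀) x = ‖(s a₀).f i x‖ ^ 2 / HH P i x ^ k := GG_eq P (s a₀) hi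
  have hnF : 0 ≤ nF (F z) := Finset.sum_nonneg fun a _ => by positivity
  have hN2p : 0 < N₂ := by rw [hN₂]; positivity
  have hN1p : 0 < N₁ := hN2p.trans_le hN
  have hGGp : 0 < GG P (s a₀) x := by rw [hGG]; positivity
  have hQp : 0 < Q := by rw [hQ]; positivity
  -- the bound of `Q`
  set q : ℝ := 6 * ((R : ℝ) + 1) ^ 2 with hq
  have hqp : 0 < q := by rw [hq]; positivity
  have hQle : Q ≤ q * ε := by
    have h1 := Q_le (σ := fun a => (s a).f i x) (v := F z) hσ hv hmax hδ0.le hδ1 hε (fun b => by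
      have h2 := (norm_le_pi_norm (yq s a₀ i e (e x) - rat F a₀ z) b).trans hd
      have h3 : (yq s a₀ i e (e x) - rat F a₀ z) b = (s (a₀.succAbove b)).f i x / (s a₀).f i x -
          F z (a₀.succAbove b) / F z a₀ := by
        show (s (a₀.succAbove b)).f i (e.symm (e x)) / (s a₀).f i (e.symm (e x)) - _ = _
        rw [hx.left_inv]
        rfl
      rwa [h3] at h2)
    have h4 : Q = ((1 / 2) * ∑ a, ∑ b, ‖(s a).f i x * F z b - (s b).f i x * F z a‖ ^ 2 +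
        ε * (∑ a, ‖(s a).f i x‖ ^ 2) * ∑ a, ‖F z a‖ ^ 2) /
          (‖(s a₀).f i x‖ ^ 2 * ‖F z a₀‖ ^ 2) := by
      rw [hQ, hN₁, nW_eq P (F z) hi, nS_eq P hi, hGG, nF]
      field_simp
    rw [h4]
    exact h1
  -- the coefficient
  set c0 : ℝ := N₁ / (N₁ + N₂) * (ε / Q ^ 2) with hc0
  have hc0p : 0 ≤ c0 := by rw [hc0]; positivity
  have hhalf : (1 / 2 : ℝ) ≤ N₁ / (N₁ + N₂) := by
    rw [div_le_div_iff₀ (by norm_num) (by positivity)]
    linarith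
  have hc0ge : (1 / (2 * q ^ 2)) * ε⁻¹ ≤ c0 := by
    have h1 : Q ^ 2 ≤ q ^ 2 * ε ^ 2 := by
      calc Q ^ 2 ≤ (q * ε) ^ 2 := pow_le_pow_left₀ hQp.le hQle 2
        _ = _ := by ring
    have h2 : ε / (q ^ 2 * ε ^ 2) ≤ ε / Q ^ 2 := div_le_div_of_nonneg_left hε0.le (by positivity) h1
    have h3 : (1 / (2 * q ^ 2)) * ε⁻¹ = 1 / 2 * (ε / (q ^ 2 * ε ^ 2)) := by field_simp
    rw [h3, hc0]
    exact mul_le_mul hhalf h2 (by positivity) (by positivity)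
  have hpow : (1 / (2 * q ^ 2)) ^ R * δ⁻¹ ^ (2 * R) ≤ c0 ^ R := by
    have h1 := pow_le_pow_left₀ (by positivity) hc0ge R
    rw [mul_pow] at h1
    have h2 : ε⁻¹ ^ R = δ⁻¹ ^ (2 * R) := by
      rw [hε, pow_mul, inv_pow δ 2]
    rwa [h2] at h1
  -- E5
  set g : Fin R → Fin n → ℂ := fun b p => -fderiv ℂ (fun y => (s (a₀.succAbove b)).f i (e.symm y) /
            (s a₀).f i (e.symm y)) (e x) (Pi.single p 1) with hg
  set A : Fin R → Fin R → ℂ := fun b j => fderiv ℂ (fun z' => F z' (a₀.succAbove b) / F z' a₀) z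
    (Pi.single j 1) with hA
  have h5 := H988.D.e5 (hw.posDef e x hx) hR hRn g A hc0p
    (fun j => KJ C W (lamE ε P s F) e (e x) z j) hK
  refine le_trans ?_ h5
  -- the determinants
  have hdet := hG.2 n (W e (e x)) cw hcw hlo
  have hgram := hG.1 n R (W e (e x)) Cw hCw (hw.posDef e x hx) hhi (H988.D.colM g)
  set J : Matrix (Fin R) (Fin n) ℂ := H66.S7.JF (yq s a₀ i e) (e x) with hJ
  have hcol : (H988.D.colM g) = -Jᵀ := by
    ext p b
    rw [Matrix.neg_apply, Matrix.transpose_apply]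
    show g b p = -(dz p (fun y => yq s a₀ i e y b) (e x))
    have hya := yq_an (s := s) hx hi hσ
    have h1 : HasFDerivAt (fun z => yq s a₀ i e z b)
        ((ContinuousLinearMap.proj (R := ℂ) (φ := fun _ : Fin R => ℂ) b).comp
          (fderiv ℂ (yq s a₀ i e) (e x))) (e x) :=
      (ContinuousLinearMap.proj (R := ℂ) (φ := fun _ : Fin R => ℂ) b).hasFDerivAt.comp (e x)
        hya.differentiableAt.hasFDerivAt
    rw [Vale.Agent.P272.K.INT.dz_of_holo h1.differentiableAt]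
    rfl
  have hJJ : ((H988.D.colM g)ᴴ * H988.D.colM g).det.re = (J * Jᴴ).det.re := by
    have h1 : (H988.D.colM g)ᴴ * H988.D.colM g = (J * Jᴴ)ᵀ := by
      rw [hcol, Matrix.conjTranspose_neg, Matrix.neg_mul, Matrix.mul_neg, neg_neg,
        Matrix.transpose_mul]
      rfl
    rw [h1, Matrix.det_transpose]
  have hJJ0 : 0 ≤ (J * Jᴴ).det.re :=
    (Complex.le_def.1 (Matrix.posSemidef_self_mul_conjTranspose J).det_nonneg).1
  rw [hJJ] at hgram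
  have hexp : 0 ≤ ((R : ℝ) - 1) / R := div_nonneg (by linarith) hR0.le
  have hrp : (Cw⁻¹ ^ R) ^ (((R : ℝ) - 1) / R) * (J * Jᴴ).det.re ^ (((R : ℝ) - 1) / R) ≤
      (H988.D.Gam (W e (e x)) g).det.re ^ (((R : ℝ) - 1) / R) := by
    rw [← Real.mul_rpow (by positivity) hJJ0]
    exact Real.rpow_le_rpow (by positivity) hgram hexp
  have hdetA : 0 ≤ ‖(Matrix.of A).det‖ ^ (2 / (R : ℝ)) := by positivity
  have e1 : kap n R cw Cw * ‖(Matrix.of A).det‖ ^ (2 / (R : ℝ)) *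
      (δ⁻¹ ^ (2 * R) * (J * Jᴴ).det.re ^ (((R : ℝ) - 1) / R)) =
      R * cw ^ n * ((1 / (2 * q ^ 2)) ^ R * δ⁻¹ ^ (2 * R)) *
        ((Cw⁻¹ ^ R) ^ (((R : ℝ) - 1) / R) * (J * Jᴴ).det.re ^ (((R : ℝ) - 1) / R)) *
          ‖(Matrix.of A).det‖ ^ (2 / (R : ℝ)) := by
    rw [kap]
    ring
  show kap n R cw Cw * ‖(Matrix.of A).det‖ ^ (2 / (R : ℝ)) *
      (δ⁻¹ ^ (2 * R) * (J * Jᴴ).det.re ^ (((R : ℝ) - 1) / R)) ≤ _
  rw [e1]
  refine mul_le_mul_of_nonneg_right ?_ hdetA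
  refine mul_le_mul (mul_le_mul (mul_le_mul_of_nonneg_left hdet hR0.le) hpow (by positivity) ?_)
    hrp (by positivity) ?_
  · exact mul_nonneg hR0.le (le_trans (by positivity) hdet)
  · exact mul_nonneg (mul_nonneg hR0.le (le_trans (by positivity) hdet)) (by positivity)

end Vale.Agent.P284.H691.D
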