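import Mathlib.Analysis.Calculus.InverseFunctionTheorem.ContDiff
import Mathlib.Analysis.Calculus.ContDiff.RCLike
import Mathlib.Analysis.Calculus.MeanValue
import Mathlib.Analysis.Calculus.FDeriv.Analytic
import Mathlib.Analysis.Complex.Basic
import Mathlib.Analysis.Complex.CauchyIntegral

/-!
# P284 (helper691), project D, module E7: functions which are constant along the fibres
-/

open Set Filter Metric
open scoped Topology ContDiff

noncomputable section

namespace Vale.Agent.P284.H691.D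

/-- If `dρ` vanishes on `ker dG` near `p` and `dG_p` is onto, then `ρ` is constant on the fibre of `G`
near `p`. -/
theorem const_fibre {n q : ℕ} {G : (Fin n → ℂ) → (Fin q → ℂ)} {ρ : (Fin n → ℂ) → ℂ}
    {p : Fin n → ℂ} (hG : AnalyticAt ℂ G p) (hs : Function.Surjective (fderiv ℂ G p))
    (hρ : AnalyticAt ℂ ρ p)
    (hk : ∀ᶠ z in 𝓝 p, ∀ ξ, fderiv ℂ G z ξ = 0 → fderiv ℂ ρ z ξ = 0) :
    ∀ᶠ z in 𝓝 p, G z = G p → ρ z = ρ p := by
  -- a complement of the kernel
  set K : Submodule ℂ (Fin n → ℂ) := LinearMap.ker (fderiv ℂ G p : (Fin n → ℂ) →ₗ[ℂ] (Fin q → ℂ))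
    with hK
  obtain ⟨π, hπ⟩ : ∃ π : (Fin n → ℂ) →ₗ[ℂ] K, ∀ x : K, π x = x := by
    obtain ⟨C, hC⟩ := K.exists_isCompl
    exact ⟨K.projectionOnto C hC, fun x => Submodule.projectionOnto_apply_left hC x⟩
  set Φ : (Fin n → ℂ) → (Fin q → ℂ) × K := fun z => (G z, π.toContinuousLinearMap z) with hΦ
  have hΦa : ∀ z, AnalyticAt ℂ G z → AnalyticAt ℂ Φ z := fun z hz =>
    hz.prod (π.toContinuousLinearMap.analyticAt z)
  have hΦd : ∀ z, AnalyticAt ℂ G z → fderiv ℂ Φ z = (fderiv ℂ G z).prod π.toContinuousLinearMap := by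
    intro z hz
    exact (hz.differentiableAt.hasFDerivAt.prodMk π.toContinuousLinearMap.hasFDerivAt).fderiv
  have hbij : Function.Bijective (fderiv ℂ Φ p) := by
    rw [hΦd p hG]
    constructor
    · rw [injective_iff_map_eq_zero]
      intro x hx
      have h1 : fderiv ℂ G p x = 0 := congrArg Prod.fst hx
      have h2 : π x = 0 := congrArg Prod.snd hx
      have h3 : x ∈ K := h1
      have h4 := hπ ⟨x, h3⟩
      rw [h2] at h4
      exact congrArg Subtype.val h4.symm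
    · rintro ⟨a, b⟩
      obtain ⟨x, hx⟩ := hs a
      refine ⟨x - π x + b, Prod.ext ?_ ?_⟩
      · show fderiv ℂ G p (x - π x + b) = a
        have h5 : fderiv ℂ G p ((π x : K) : Fin n → ℂ) = 0 := (π x).2
        have h6 : fderiv ℂ G p (b : Fin n → ℂ) = 0 := b.2
        rw [map_add, map_sub, h5, h6, sub_zero, add_zero, hx]
      · show π (x - π x + b) = b
        rw [map_add, map_sub, hπ, hπ, sub_self, zero_add]
  let E : (Fin n → ℂ) ≃L[ℂ] (Fin q → ℂ) × K := ContinuousLinearEquiv.ofBijective (fderiv ℂ Φ p)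
    (LinearMap.ker_eq_bot.2 hbij.1) (LinearMap.range_eq_top.2 hbij.2)
  have hE : (E : (Fin n → ℂ) →L[ℂ] (Fin q → ℂ) × K) = fderiv ℂ Φ p := by
    ext x <;> rfl
  have hst : HasStrictFDerivAt Φ (E : (Fin n → ℂ) →L[ℂ] (Fin q → ℂ) × K) p := by
    rw [hE]
    exact (hΦa p hG).hasStrictFDerivAt
  have hinv : AnalyticAt ℂ (hst.localInverse Φ E p) (Φ p) := by
    have h1 : ContDiffAt ℂ ω Φ p := (hΦa p hG).contDiffAt
    have h2 := h1.to_localInverse (f' := E) hst.hasFDerivAt (by simp)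
    exact h2.analyticAt
  set Ψ := hst.localInverse Φ E p with hΨ
  have hleft : ∀ᶠ w in 𝓝 p, Ψ (Φ w) = w := hst.eventually_left_inverse
  have hright : ∀ᶠ y in 𝓝 (Φ p), Φ (Ψ y) = y := hst.eventually_right_inverse
  have hΨp : Ψ (Φ p) = p := hleft.self_of_nhds
  have hΨc : Tendsto Ψ (𝓝 (Φ p)) (𝓝 p) := by
    have := hinv.continuousAt
    rwa [ContinuousAt, hΨp] at this
  -- a good neighbourhood
  have hev : ∀ᶠ y in 𝓝 (Φ p), Φ (Ψ y) = y ∧ AnalyticAt ℂ Ψ y ∧ AnalyticAt ℂ G (Ψ y) ∧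
      AnalyticAt ℂ ρ (Ψ y) ∧ ∀ ξ, fderiv ℂ G (Ψ y) ξ = 0 → fderiv ℂ ρ (Ψ y) ξ = 0 := by
    filter_upwards [hright, hinv.eventually_analyticAt, hΨc.eventually hG.eventually_analyticAt,
      hΨc.eventually hρ.eventually_analyticAt, hΨc.eventually hk] with y a1 a2 a3 a4 a5
    exact ⟨a1, a2, a3, a4, a5⟩
  obtain ⟨r, hr, hball⟩ := Metric.eventually_nhds_iff_ball.1 hev
  have hΦc : ContinuousAt Φ p := (hΦa p hG).continuousAt
  filter_upwards [hleft, hΦc.preimage_mem_nhds (ball_mem_nhds _ hr)] with z hz1 hz2 hz3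
  -- the segment
  have hz2' : Φ z ∈ ball (Φ p) r := hz2
  have hfst : (Φ z).1 = (Φ p).1 := hz3
  set u : K → ℂ := fun t => ρ (Ψ ((Φ p).1, t)) with hu
  have hmem : ∀ t ∈ ball (Φ p).2 r, ((Φ p).1, t) ∈ ball (Φ p) r := by
    intro t ht
    rw [← ball_prod_same]
    exact ⟨mem_ball_self hr, ht⟩
  have hud : ∀ t ∈ ball (Φ p).2 r, HasFDerivAt u (0 : K →L[ℂ] ℂ) t := by
    intro t ht
    obtain ⟨b1, b2, b3, b4, b5⟩ := hball _ (hmem t ht)
    have h1 : HasFDerivAt (fun t : K => ((Φ p).1, t)) (ContinuousLinearMap.inr ℂ (Fin q → ℂ) K) t :=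
      hasFDerivAt_prodMk_right _ _
    have h2 : HasFDerivAt (fun t : K => Ψ ((Φ p).1, t))
        ((fderiv ℂ Ψ ((Φ p).1, t)).comp (ContinuousLinearMap.inr ℂ (Fin q → ℂ) K)) t :=
      b2.differentiableAt.hasFDerivAt.comp t h1
    have h3 : HasFDerivAt u ((fderiv ℂ ρ (Ψ ((Φ p).1, t))).comp
        ((fderiv ℂ Ψ ((Φ p).1, t)).comp (ContinuousLinearMap.inr ℂ (Fin q → ℂ) K))) t :=
      b4.differentiableAt.hasFDerivAt.comp t h2
    have h4 : (fderiv ℂ ρ (Ψ ((Φ p).1, t))).comp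
        ((fderiv ℂ Ψ ((Φ p).1, t)).comp (ContinuousLinearMap.inr ℂ (Fin q → ℂ) K)) = 0 := by
      ext ξ
      refine b5 _ ?_
      -- `G ∘ Ψ = fst`
      have h5 : HasFDerivAt (fun t : K => G (Ψ ((Φ p).1, t)))
          ((fderiv ℂ G (Ψ ((Φ p).1, t))).comp ((fderiv ℂ Ψ ((Φ p).1, t)).comp
            (ContinuousLinearMap.inr ℂ (Fin q → ℂ) K))) t :=
        b3.differentiableAt.hasFDerivAt.comp t h2
      have h6 : (fun t : K => G (Ψ ((Φ p).1, t))) =ᶠ[𝓝 t] fun _ => (Φ p).1 := by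
        filter_upwards [isOpen_ball.mem_nhds ht] with t' ht'
        have := (hball _ (hmem t' ht')).1
        exact congrArg Prod.fst this
      have h7 := (h5.congr_of_eventuallyEq h6.symm).unique (hasFDerivAt_const _ _)
      exact congrArg (fun (F : K →L[ℂ] (Fin q → ℂ)) => F ξ) h7
    rw [h4] at h3
    exact h3
  have hconst : ∀ t ∈ ball (Φ p).2 r, u t = u (Φ p).2 := by
    intro t ht
    have hconv : Convex ℝ (ball (Φ p).2 r) := convex_ball _ _
    exact hconv.is_const_of_fderivWithin_eq_zero (𝕜 := ℂ) (s := ball (Φ p).2 r)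
      (fun t ht => (hud t ht).differentiableAt.differentiableWithinAt)
      (fun t ht => by
        rw [fderivWithin_of_isOpen isOpen_ball ht]
        exact (hud t ht).fderiv) ht (mem_ball_self hr)
  have hz4 : (Φ z).2 ∈ ball (Φ p).2 r := by
    rw [← Prod.mk.eta (p := Φ p), ← ball_prod_same] at hz2'
    exact hz2'.2
  have h8 := hconst _ hz4
  have e1 : ((Φ p).1, (Φ z).2) = Φ z := by rw [← hfst]
  have e2 : ((Φ p).1, (Φ p).2) = Φ p := rfl
  simp only [hu] at h8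
  rw [e1, hz1, e2, hΨp] at h8
  exact h8

end Vale.Agent.P284.H691.D
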